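import Vale.Agent.P025.R2.H352.Nine
import Vale.Agent.P025.R2.H352.CpData
import Vale.Agent.P025.R2.H666.Disch
import Vale.Agent.P025.R2.H816.Descend

/-!
# P025 G-MAIN (helper352): part G over `Cp p Kb`, from the rows still open
-/

set_option linter.unusedSectionVars false
set_option linter.style.haveILetI false

universe u

open P025H373 P025H628 P025H492 P025H450 P025H722 P025H666 P025H941 Vale.Agent.P019P

namespace P025H352

section

variable (C : Type u) [NontriviallyNormedField C] [IsUltrametricDist C] [CompleteSpace C]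
  [IsAlgClosed C] [CharZero C]

/-- G-MONO, disc form -/
theorem monoD : MonoD C := by
  intro K _ _ _ N l P h _ _ c hc
  exact h.at c (Or.inr hc)

/-- descent -/
theorem desc : Desc C := by
  intro K Z W _ _ _ _ _ _ _ _ _ _ _ _ _ _ _ _ _ _ _ _ _ N M l P c _ hcov h _ hl
  have := hcov.fin
  have : FiniteDimensional K Z := FiniteDimensional.left K Z W
  exact P025H816.rnsat_descend hcov hl P c h

end

variable (p : ℕ) [Fact p.Prime] (Kb : Type u) [Field Kb] [Algebra ℚ_[p] Kb]
  [Algebra.IsAlgebraic ℚ_[p] Kb] [IsAlgClosed Kb]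

/-- (III) over `Cp p Kb` -/
theorem mainIII_Cp (h2 : Rank2 (Cp p Kb) p)
    (hV : letI := algQp p Kb
      Value (Cp p Kb) p) (h3 : Three (Cp p Kb)) : MainIII (Cp p Kb) := by
  letI := algQp p Kb
  exact mainIII_of (thm9_of (dense_integral p Kb) h2 hV (monoD _) (desc _)) h3

end P025H352
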