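import Vale.Agent.P025.R2.H666.Asm2
import Vale.Agent.P025.R2.H941.OM5
import Vale.Agent.P025.R2.H492.Genus
import Vale.Agent.P025.R2.H210.Spec51

/-!
# P025 G-MAIN (helper352): the chain Theorem 7 -> (8.1) -> Theorem 9 -> (III)

Every row of the chain is a `Prop` with the exact published statement of its owner; the theorems
of this file connect the rows (no `sorry`).
-/

set_option linter.unusedSectionVars false
set_option linter.style.haveILetI false

universe u

open TensorProduct P025H373 P025H544 P025H628 P025H492 P025H450 P025H587 P025H621 P025H722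
  P025H666 P025H941 P025H210 P025H816 Vale.Agent.P019P

namespace P025H352

section rows

variable (C : Type u) [NontriviallyNormedField C] [IsUltrametricDist C] [CompleteSpace C]
  [IsAlgClosed C] [CharZero C]

/-- G-HT (helper587): existence of Hodge-Tate forms -/
def RowHT (p : ℕ) : Prop :=
  ∀ (L : Type u) [Field L] [Algebra C L] [CFF C L], HasTheta C p L

/-- (7.2) G-S1 (helper133) -/
def RowNear (p : ℕ) : Prop :=
  ∀ (L : Type u) [Field L] [Algebra C L] [CFF C L], OmZero C p L → NearAll C p L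

/-- G-RANK2 (helper16, helper666) -/
def Rank2 (p : ℕ) : Prop :=
  ∀ (K : Type u) [Field K] [Algebra C K] [CFF C K], 2 ≤ gen C K →
    ∃ (Z : Type u) (_ : Field Z) (_ : Algebra C Z) (_ : Algebra K Z) (_ : IsScalarTower C K Z)
      (_ : FiniteDimensional K Z) (_ : CFF C Z), InSol C K Z ∧
      ∃ (D : Derivation C Z Z) (f f' : ℕ → Z) (θ θ' : Z), D ≠ 0 ∧ IsSys C p f ∧ IsSys C p f' ∧
        IsTheta p D f θ ∧ IsTheta p D f' θ' ∧ θ ≠ 0 ∧ ∀ a : C, θ' ≠ algebraMap C Z a * θ

/-- Theorem 9 (helper535) -/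
def Thm9 : Prop :=
  ∀ (K : Type u) [Field K] [Algebra C K] [CFF C K], 2 ≤ gen C K →
    ∃ m l : ℕ, 0 < m ∧ l.Prime ∧ Nat.Coprime l m ∧ ∀ Q : Plk C K, RNS m l C K Q

/-- (III') (helper628, `three'`) -/
def Three' : Prop :=
  ∀ (K : Type u) [Field K] [Algebra C K] [Algebra (RatFunc C) K] [IsScalarTower C (RatFunc C) K]
    [FiniteDimensional (RatFunc C) K] [CFF C K] (m l : ℕ), l.Prime → Nat.Coprime l m →
    (∀ P : Plk C K, ord P (TT C K) < 0 → RNS m l C K P) →
    ∃ (r0 : ℝ) (Nm : ℕ), 0 < r0 ∧ ∀ q : ℕ, 0 < q → ∀ c : Cˣ, r0 < ‖(c : C)‖ * ‖(q : C)‖ ^ Nm →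
      ∀ h : K, h ≠ 0 → (∀ P : Plk C K, 0 ≤ ord P (TT C K) → (q : ℤ) ∣ ord P h) →
      ∃ (Z W : Type u) (_ : Field Z) (_ : Field W) (_ : Algebra C Z) (_ : Algebra C W)
        (_ : Algebra K Z) (_ : Algebra K W) (_ : Algebra Z W) (_ : Algebra (RatFunc C) Z)
        (_ : IsScalarTower C K Z) (_ : IsScalarTower C K W) (_ : IsScalarTower C Z W)
        (_ : IsScalarTower K Z W) (_ : IsScalarTower (RatFunc C) K Z)
        (_ : IsScalarTower C (RatFunc C) Z) (_ : CFF C Z) (_ : CFF C W),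
        Cov (m * l) C K W ∧
        ∃ j : Z →ₐ[RatFunc C] F1r C c ⊗[RatFunc C] K,
          (∀ k : K, j (algebraMap K Z k) = 1 ⊗ₜ k) ∧
          ∃ y : Z, y ≠ 0 ∧ (∀ P : Plk C Z, (q : ℤ) ∣ ord P y) ∧
            ∃ w : (F1r C c ⊗[RatFunc C] K)ˣ,
              (1 : F1r C c) ⊗ₜ[RatFunc C] h = j y * (w : F1r C c ⊗[RatFunc C] K) ^ q

/-- (III) (helper628, `three`) -/
def Three : Prop :=
  ∀ (K : Type u) [Field K] [Algebra C K] [Algebra (RatFunc C) K] [IsScalarTower C (RatFunc C) K]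
    [FiniteDimensional (RatFunc C) K] [CFF C K] (m l : ℕ), l.Prime → Nat.Coprime l m →
    (∀ P : Plk C K, ord P (TT C K) < 0 → RNS m l C K P) →
    ∃ (r0 : ℝ) (Nm : ℕ), 0 < r0 ∧ ∀ q : ℕ, 0 < q → ∀ c : Cˣ, r0 < ‖(c : C)‖ * ‖(q : C)‖ ^ Nm →
      ∀ h : K, h ≠ 0 → (∀ P : Plk C K, 0 ≤ ord P (TT C K) → (q : ℤ) ∣ ord P h) →
      ∃ (L : Type u) (_ : Field L) (_ : Algebra C L) (_ : Algebra K L) (_ : Algebra (RatFunc C) L)
        (_ : IsScalarTower C K L) (_ : IsScalarTower C (RatFunc C) L)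
        (_ : IsScalarTower (RatFunc C) K L) (_ : CFF C L), Cov (m * l * q) C K L ∧
        ∃ s : F1r C c ⊗[RatFunc C] L, s ^ q = (1 : F1r C c) ⊗ₜ[RatFunc C] algebraMap K L h

/-- (III) for all function fields of genus at least two: what part A consumes (A2.1) -/
def MainIII : Prop :=
  ∀ (K : Type u) [Field K] [Algebra C K] [Algebra (RatFunc C) K] [IsScalarTower C (RatFunc C) K]
    [FiniteDimensional (RatFunc C) K] [CFF C K], 2 ≤ gen C K →
    ∃ (r0 : ℝ) (Nm : ℕ), 0 < r0 ∧ ∀ q : ℕ, 0 < q → ∀ c : Cˣ, r0 < ‖(c : C)‖ * ‖(q : C)‖ ^ Nm →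
      ∀ h : K, h ≠ 0 → (∀ P : Plk C K, 0 ≤ ord P (TT C K) → (q : ℤ) ∣ ord P h) →
      ∃ (L : Type u) (_ : Field L) (_ : Algebra C L) (_ : Algebra K L) (_ : Algebra (RatFunc C) L)
        (_ : IsScalarTower C K L) (_ : IsScalarTower C (RatFunc C) L)
        (_ : IsScalarTower (RatFunc C) K L) (_ : CFF C L) (_ : FiniteDimensional K L),
        IsGalois K L ∧ Group.IsSolvable (L ≃ₐ[K] L) ∧ IsUnr C K L ∧
        ∃ s : F1r C c ⊗[RatFunc C] L, s ^ q = (1 : F1r C c) ⊗ₜ[RatFunc C] algebraMap K L h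

variable {C}

theorem mainIII_of (h9 : Thm9 C) (h3 : Three C) : MainIII C := by
  intro K _ _ _ _ _ _ hg
  obtain ⟨m, l, -, hl, hlm, hR⟩ := h9 K hg
  obtain ⟨r0, Nm, hr0, h⟩ := h3 K m l hl hlm fun P _ => hR P
  refine ⟨r0, Nm, hr0, fun q hq c hc h' hh0 hh => ?_⟩
  obtain ⟨L, _, _, _, _, _, _, _, _, hcov, s, hs⟩ := h q hq c hc h' hh0 hh
  exact ⟨L, inferInstance, inferInstance, inferInstance, inferInstance, inferInstance,
    inferInstance, inferInstance, inferInstance, hcov.fin, hcov.gal, hcov.sol,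
    fun Q => hcov.unr Q, s, hs⟩

end rows

section start

variable {C : Type u} [NontriviallyNormedField C] [IsUltrametricDist C] [CompleteSpace C]
  [IsAlgClosed C] [CharZero C]

/-- a nonzero Hodge-Tate form from `¬ OmZero` -/
theorem exists_form {p : ℕ} {K : Type u} [Field K] [Algebra C K] (hT : HasTheta C p K)
    (h : ¬ OmZero C p K) : ∃ (D : Derivation C K K) (f : ℕ → K) (θ : K), D ≠ 0 ∧
      IsSys C p f ∧ IsTheta p D f θ ∧ θ ≠ 0 := by
  unfold OmZero at h
  push Not at h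
  obtain ⟨D, f, hf, hn⟩ := h
  obtain ⟨θ, hθ⟩ := hT D f hf
  have hθ0 : θ ≠ 0 := by
    rintro rfl
    exact hn hθ
  refine ⟨D, f, θ, ?_, hf, hθ, hθ0⟩
  rintro rfl
  apply hn
  intro w hw
  refine ⟨0, fun m => ?_⟩
  simp

/-- an unramified Kummer cover is Galois, solvable and unramified -/
theorem cover_props {p : ℕ} (hp : p.Prime) {K W : Type u} [Field K] [Algebra C K] [CFF C K]
    [Field W] [Algebra K W] [Algebra C W] [IsScalarTower C K W] [CFF C W]
    (h : IsCover C p K W) : ∃ _ : FiniteDimensional K W, IsGalois K W ∧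
      Group.IsSolvable (W ≃ₐ[K] W) ∧ IsUnr C K W := by
  have hpC0 : (p : C) ≠ 0 := by exact_mod_cast hp.ne_zero
  obtain ⟨f, β, hf0, hd, hβ, htop⟩ := h
  have hint : IsIntegral K β := ⟨Polynomial.X ^ p - Polynomial.C f,
    Polynomial.monic_X_pow_sub_C f hp.ne_zero, by simp [hβ]⟩
  have hfin : FiniteDimensional K W := by
    have h1 : FiniteDimensional K (IntermediateField.adjoin K {β}) :=
      IntermediateField.adjoin.finiteDimensional hint
    rw [htop] at h1
    exact IntermediateField.topEquiv.toLinearEquiv.finiteDimensional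
  have hgal : IsGalois K W := isGalois_radicals (k := C) (S := {β}) htop fun y hy => by
    rw [Set.mem_singleton_iff] at hy
    exact ⟨p, f, hpC0, hy ▸ hβ⟩
  refine ⟨hfin, hgal, ?_, isUnr_kummer hpC0 hβ htop hd⟩
  refine Group.isSolvable_of_comm fun σ τ => ?_
  have key : ∀ σ : W ≃ₐ[K] W, ∃ ζ : C, σ β = algebraMap C W ζ * β := by
    intro σ
    have h1 : (σ β) ^ p = β ^ p := by rw [← map_pow, hβ, AlgEquiv.commutes]
    have hβ0 : β ≠ 0 := by
      rintro rfl
      rw [zero_pow hp.ne_zero] at hβ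
      exact hf0 ((map_eq_zero _).1 hβ.symm)
    have hn1 : NeZero (p : C) := ⟨hpC0⟩
    have hn2 : NeZero p := ⟨hp.ne_zero⟩
    obtain ⟨ζ, hζ⟩ := HasEnoughRootsOfUnity.exists_primitiveRoot C p
    have hζ' := hζ.map_of_injective (algebraMap C W).injective
    have h2 : (σ β * β⁻¹) ^ p = 1 := by
      rw [mul_pow, h1, ← mul_pow, mul_inv_cancel₀ hβ0, one_pow]
    obtain ⟨i, -, hi⟩ := hζ'.eq_pow_of_pow_eq_one h2
    refine ⟨ζ ^ i, ?_⟩
    rw [map_pow, hi, mul_assoc, inv_mul_cancel₀ hβ0, mul_one]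
  obtain ⟨a, ha⟩ := key σ
  obtain ⟨b, hb⟩ := key τ
  have hc : ∀ (ρ : W ≃ₐ[K] W) (c : C), ρ (algebraMap C W c) = algebraMap C W c := by
    intro ρ c
    rw [IsScalarTower.algebraMap_apply C K W, AlgEquiv.commutes]
  have h3 : ((σ * τ : W ≃ₐ[K] W) : W →ₐ[K] W) = ((τ * σ : W ≃ₐ[K] W) : W →ₐ[K] W) := by
    have h4 : ∀ x : W, x ∈ IntermediateField.adjoin K ({β} : Set W) →
        (σ * τ) x = (τ * σ) x := by
      intro x hx
      induction hx using IntermediateField.adjoin_induction with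
      | mem x hx =>
        rw [Set.mem_singleton_iff] at hx
        subst hx
        rw [AlgEquiv.mul_apply, AlgEquiv.mul_apply, hb, ha, map_mul, map_mul, hc, hc, ha, hb]
        ring
      | algebraMap x => rw [AlgEquiv.commutes, AlgEquiv.commutes]
      | add x y _ _ h1 h2 => rw [map_add, map_add, h1, h2]
      | inv x _ h1 => rw [map_inv₀, map_inv₀, h1]
      | mul x y _ _ h1 h2 => rw [map_mul, map_mul, h1, h2]
    ext x
    exact h4 x (by rw [htop]; exact IntermediateField.mem_top)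
  ext x
  exact DFunLike.congr_fun h3 x

/-- **(START)** of helper666 from the rows. -/
theorem start_of_rows {p : ℕ} (hp : p.Prime) (hpC : ‖(p : C)‖ < 1) (hT : RowHT C p)
    (hT' : RowHT (CStar C) p) (hN : RowNear (CStar C) p) : Start C p := by
  intro K _ _ _ hg
  by_cases h0 : OmZero C p K
  · by_contra hcon
    refine start_any_of C hp hpC K hg (fun L _ _ _ => hT' L) (fun L _ _ _ => hN L) h0 ?_
    intro W _ _ _ _ _ hcov
    by_contra hW
    apply hcon
    obtain ⟨hfin, hgal, hsol, hunr⟩ := cover_props hp hcov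
    obtain ⟨D, g, θ, hD, hg', hθ, hθ0⟩ := exists_form (hT W) hW
    exact ⟨W, inferInstance, inferInstance, inferInstance, inferInstance, hfin, inferInstance,
      hgal, hsol, hunr, hg.trans (gen_le C K W), D, g, θ, hD, hg', hθ, hθ0⟩
  · obtain ⟨D, f, θ, hD, hf, hθ, hθ0⟩ := exists_form (hT K) h0
    refine ⟨K, inferInstance, inferInstance, Algebra.id K, inferInstance, inferInstance,
      inferInstance, inferInstance, ?_, ?_, hg, D, f, θ, hD, hf, hθ, hθ0⟩
    · refine Group.isSolvable_of_comm fun σ τ => ?_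
      ext x
      change (σ * τ) (algebraMap K K x) = (τ * σ) (algebraMap K K x)
      rw [AlgEquiv.commutes, AlgEquiv.commutes]
    · intro P
      obtain ⟨s, -, hs⟩ := exists_unif P
      exact ram_eq_one_of_exists (K := K) (z := s) hs

end start

end P025H352
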