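import Vale.Agent.P025.R2.H352.MainG
import Vale.Agent.P025.R2.H670.Density
import Vale.Agent.P025.R2.H731.OnD
import Vale.Agent.P025.R2.H552.LauK
import Vale.Agent.P025.R2.H725.DiscFields

/-!
# P025 G-RNS (S6) (helper352): RNS at all places, from RNS at a dense set of places of a cover
-/

set_option linter.unusedSectionVars false
set_option linter.style.haveILetI false

universe u

open TensorProduct P025H373 P025H544 P025H628 P025H492 P025H450 P025H587 P025H621
  P025H666 P025H941 P025H210 P025H816 P025H731 Vale.Agent.P019P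

namespace P025H352

section rows

variable (C : Type u) [NontriviallyNormedField C] [IsUltrametricDist C] [CompleteSpace C]
  [IsAlgClosed C] [CharZero C]

/-- the auxiliary prime `l1` -/
def l1 (p : ℕ) : ℕ := if p = 2 then 3 else 2

/-- G-MONO (helper450), disc form: from the disc around `P` to any structure with `|T(P)| > ‖c‖` -/
def MonoD : Prop :=
  ∀ (K : Type u) [Field K] [Algebra C K] [CFF C K] (N l : ℕ) (P : Plk C K), RNS N l C K P →
    ∀ [Algebra (RatFunc C) K] [IsScalarTower C (RatFunc C) K] (c : Cˣ),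
      (∃ a : C, ‖(c : C)‖ < ‖a‖ ∧
        0 < ord P (algebraMap (RatFunc C) K RatFunc.X - algebraMap C K a)) → RNSat C N l P c

/-- (S5) (helper492): descent -/
def Desc : Prop :=
  ∀ (K Z W : Type u) [Field K] [Field Z] [Field W] [Algebra C K] [Algebra C Z] [Algebra C W]
    [Algebra K Z] [Algebra K W] [Algebra Z W] [Algebra (RatFunc C) K] [Algebra (RatFunc C) Z]
    [IsScalarTower C K Z] [IsScalarTower C K W] [IsScalarTower K Z W] [IsScalarTower C Z W]
    [IsScalarTower C (RatFunc C) K] [IsScalarTower C (RatFunc C) Z]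
    [IsScalarTower (RatFunc C) K Z] [CFF C K] [CFF C Z] [CFF C W] (N M l : ℕ) (P : Plk C Z)
    (c : Cˣ) [Algebra.IsAlgebraic K Z], Cov N C K W → RNSat C M l P c → l.Prime →
      Nat.Coprime l (N * M) → RNSat C (N * M) l (down K P) c

/-- (S4) (helper535): RNS at the places over algebraic values of `ψ = θ' / θ` -/
def Value (p : ℕ) [Fact p.Prime] [Algebra ℚ_[p] C] : Prop :=
  ∀ (K : Type u) [Field K] [Algebra C K] [CFF C K] (D : Derivation C K K) (f f' : ℕ → K)
    (θ θ' : K), D ≠ 0 → IsSys C p f → IsSys C p f' → IsTheta p D f θ → IsTheta p D f' θ' →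
    θ ≠ 0 → (∀ a : C, θ' ≠ algebraMap C K a * θ) → ∀ u : C, IsIntegral ℚ_[p] u →
    ∀ Q : Plk C K, ord Q (θ' / θ - algebraMap C K u) = 1 → ∀ l : ℕ, l.Prime → l ≠ p →
      l ≠ l1 p → RNS (p * l1 p) l C K Q

end rows

section onD

variable {C : Type u} [NontriviallyNormedField C] [IsUltrametricDist C] [CompleteSpace C]
  [IsAlgClosed C] {K : Type u} [Field K] [Algebra C K] [Algebra (RatFunc C) K]
  [IsScalarTower C (RatFunc C) K] [FiniteDimensional (RatFunc C) K] [CFF C K]

/-- every pole of `T` lies on a component -/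
theorem exists_onD_pole (c : Cˣ) {P : Plk C K} (hP : ord P (TT C K) < 0) :
    ∃ d, OnD C c P d := by
  obtain ⟨s, -, hs⟩ := exists_unif P
  obtain ⟨φ, -, hφ⟩ := P025H552.exists_lau P s hs
  have h1 : down (RatFunc C) P ∈ Out C (c : C) := by
    rw [mem_Out_iff]
    right
    have h2 : ord P (TT C K) = ram (RatFunc C) P * ord (down (RatFunc C) P) RatFunc.X :=
      ord_algebraMap (K := RatFunc C) P RatFunc.X
    by_contra h3
    rw [not_lt] at h3
    have h4 : (0 : ℤ) ≤ ram (RatFunc C) P := Int.natCast_nonneg _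
    have h5 := mul_nonneg h4 h3
    omega
  exact ⟨_, onD_pt h1 φ hφ⟩

end onD

section main

variable {C : Type u} [NontriviallyNormedField C] [IsUltrametricDist C] [CompleteSpace C]
  [IsAlgClosed C] [CharZero C]

/-- transport of `RNSat` from a place to the only pole of `T` -/
theorem rnsat_change {K : Type u} [Field K] [Algebra C K] [Algebra (RatFunc C) K]
    [IsScalarTower C (RatFunc C) K] [FiniteDimensional (RatFunc C) K] [CFF C K] {N l : ℕ}
    {P Q : Plk C K} {c : Cˣ} (hsub : Subsingleton (Pt (RatFunc C) (F2r C c) K))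
    (hQ : ord Q (TT C K) < 0) (h : RNSat C N l P c) : RNSat C N l Q c := by
  obtain ⟨L, i1, i2, i3, i4, i5, i6, i7, i8, hcov, β, hβ0, hβ, hx, d', hd', hnp⟩ := h
  obtain ⟨d, hd⟩ := exists_onD_pole c hQ
  exact ⟨L, i1, i2, i3, i4, i5, i6, i7, i8, hcov, β, hβ0, hβ, hx, d', by
    rwa [Subsingleton.elim (ptMap (RatFunc C) (F2r C c)
      (IsScalarTower.toAlgHom (RatFunc C) K L) d') d], hnp⟩

/-- **RNS at all places** from the rows -/
theorem thm9_of {p : ℕ} [Fact p.Prime] [Algebra ℚ_[p] C]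
    (hdense : Dense {x : C | IsIntegral ℚ_[p] x}) (h2 : Rank2 C p) (hV : Value C p)
    (hM : MonoD C) (hD : Desc C) : Thm9 C := by
  have hp : p.Prime := Fact.out
  intro K _ _ _ hg
  obtain ⟨Z, _, _, _, _, _, _, hin, D, f, f', θ, θ', hD0, hf, hf', hθ, hθ', hθ0, hne⟩ := h2 K hg
  obtain ⟨W, _, _, _, _, _, _, _, _, _, hgal, hsol, hunr⟩ := hin
  set n := Module.finrank K W with hn
  have hn0 : 0 < n := Module.finrank_pos
  have hl1 : 0 < l1 p := by unfold l1; split_ifs <;> norm_num
  have hp1 : l1 p ≤ 3 := by unfold l1; split_ifs <;> norm_num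
  obtain ⟨l, hlp, hl⟩ := Nat.exists_infinite_primes (n + p + 4)
  have hlne : l ≠ p := by omega
  have hlne1 : l ≠ l1 p := by omega
  have hcop : Nat.Coprime l (n * (p * l1 p)) := by
    rw [Nat.Prime.coprime_iff_not_dvd hl, hl.dvd_mul, hl.dvd_mul]
    rintro (h | h | h)
    · exact absurd (Nat.le_of_dvd hn0 h) (by omega)
    · exact absurd (Nat.le_of_dvd hp.pos h) (by omega)
    · exact absurd (Nat.le_of_dvd hl1 h) (by omega)
  refine ⟨n * (p * l1 p), l, Nat.mul_pos hn0 (Nat.mul_pos hp.pos hl1), hl, hcop, fun Q => ?_⟩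
  have hcov : Cov n C K W := ⟨inferInstance, hgal, hsol, ⟨1, by rw [pow_one]⟩, fun Q => hunr Q⟩
  obtain ⟨t, ht0, htQ, htreg⟩ := exists_one_pole Q (N := 2 * gen C K + 1) (by omega)
  have ht : Transcendental C t := transcendental_of_ord (P := Q) (by rw [htQ]; push_cast; omega)
  letI iR : Algebra (RatFunc C) K := algT t ht
  haveI tK : IsScalarTower C (RatFunc C) K := P025H725.algT_tower t ht
  haveI fK : FiniteDimensional (RatFunc C) K := P025H725.algT_finite t ht
  have hX : algebraMap (RatFunc C) K RatFunc.X = t := P025H725.algT_X t ht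
  letI iZ : Algebra (RatFunc C) Z :=
    ((algebraMap K Z).comp (algebraMap (RatFunc C) K)).toAlgebra
  haveI tZ : IsScalarTower (RatFunc C) K Z := IsScalarTower.of_algebraMap_eq' rfl
  haveI tZ' : IsScalarTower C (RatFunc C) Z := IsScalarTower.of_algebraMap_eq fun x => by
    rw [IsScalarTower.algebraMap_apply (RatFunc C) K Z,
      ← IsScalarTower.algebraMap_apply C (RatFunc C) K, ← IsScalarTower.algebraMap_apply C K Z]
  have hpole : ∀ Q' : Plk C K, ord Q' (algebraMap (RatFunc C) K RatFunc.X) < 0 ↔ Q' = Q := by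
    intro Q'
    rw [hX]
    constructor
    · intro h
      by_contra h'
      exact absurd (htreg Q' h') (by omega)
    · rintro rfl
      rw [htQ]
      push_cast
      omega
  refine ⟨iR, tK, hpole, fun r => ?_⟩
  obtain ⟨Ch⟩ := exists_charts C K
  obtain ⟨x, hx⟩ := NormedField.exists_lt_norm C (max r Ch.r0)
  have hx0 : x ≠ 0 := by
    rintro rfl
    rw [norm_zero] at hx
    exact absurd (Ch.r0_pos.trans_le (le_max_right r Ch.r0)) (by linarith)
  let c : Cˣ := Units.mk0 x hx0
  have hc : max r Ch.r0 < ‖(c : C)‖ := hx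
  refine ⟨c, ((le_max_left _ _).trans_lt hc).le, ?_⟩
  have hr : Ch.r0 ≤ ‖(c : C)‖ := ((le_max_right _ _).trans_lt hc).le
  have hsub : Subsingleton (Pt (RatFunc C) (F2r C c) K) := by
    refine ⟨fun d d' => ?_⟩
    obtain ⟨P, rfl⟩ := (Ch.dP_bijective c hr).2 d
    obtain ⟨P', rfl⟩ := (Ch.dP_bijective c hr).2 d'
    have h1 : P = P' := Subtype.ext (((hpole P.1).1 P.2).trans ((hpole P'.1).1 P'.2).symm)
    rw [h1]
  -- density
  have hψ : ∀ a : C, θ' / θ ≠ algebraMap C Z a := by
    intro a ha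
    exact hne a ((div_eq_iff hθ0).1 ha)
  have ht' : ∀ a : C, algebraMap K Z t ≠ algebraMap C Z a := by
    intro a ha
    rw [IsScalarTower.algebraMap_apply C K Z] at ha
    exact ht ((algebraMap K Z).injective ha ▸ isAlgebraic_algebraMap a)
  obtain ⟨P, -, ⟨a, hca, hPa⟩, u, hu, hPu⟩ := P025H670.exists_place_dense (ψ := θ' / θ)
    (t0 := algebraMap K Z t) hψ ht' (c : C) hdense (S := ∅) Set.finite_empty
  have h4 : RNS (p * l1 p) l C Z P :=
    hV Z D f f' θ θ' hD0 hf hf' hθ hθ' hθ0 hne u hu P hPu l hl hlne hlne1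
  have hXZ : algebraMap (RatFunc C) Z RatFunc.X = algebraMap K Z t := by
    rw [IsScalarTower.algebraMap_apply (RatFunc C) K Z, hX]
  have h5 : RNSat C (p * l1 p) l P c := hM Z _ l P h4 c ⟨a, hca, by rw [hXZ]; exact hPa⟩
  have h6 : RNSat C (n * (p * l1 p)) l (down K P) c :=
    hD K Z W n (p * l1 p) l P c hcov h5 hl hcop
  exact rnsat_change hsub ((hpole Q).2 rfl) h6

end main

end P025H352
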